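import Vale.Agent.P159.TM.H41.InitQ
import Vale.Agent.P159.TM.H129.Tor
import Vale.Agent.P159.TM.H389.Kann
import Vale.Agent.P159.TM.H519.Ih
import Vale.Agent.P159.TM.H574.Fin
import Vale.Agent.P159.TM.H943.Win
import Vale.Agent.P159.TM.H968.Final
import Vale.Agent.P159.TM.H970.Susm
import Vale.Agent.P159.TM.H992.Iasm1
import Vale.Agent.P159.TM.H992.Logm

/-!
Module (I) of P159, T1, bound together: `WIN b` for every `b > 0` and `InitQ` without hypotheses.
-/

namespace Vale.Agent.P159.TM.H41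

/-- **module (I), box and torus output** -/
theorem win {b : ℝ} (hb : 0 < b) : SpecI.WIN b := by
  intro hY
  have hU : SpecI.UV b := H574.uv_kann hb.le (H389.kann hb.le)
  have h := H992.iasm1 hY (H968.igc hb) hU H992.logm H970.susm
  exact H943.win_of hb.le (H968.igm hb) hU h.1 h.2 (H519.ih_box hb) (H129.torI hb.le) hY

/-- **the initial condition at the critical point** -/
theorem initQ_crit : Frame.InitQ Frame.QL := initQ (win H170.bCrit_pos)

/-- T1 from the three remaining inputs -/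
theorem helicity_of
    (hT0 : ∀ b1 b2 : ℝ, 0 < b1 → b1 ≤ b2 → Frame.Trans0Q Frame.QL b1 b2 (Real.pi / 2))
    (hT : ∀ b1 b2 : ℝ, 0 < b1 → b1 ≤ b2 → Frame.TransQ Frame.QL b1 b2 (Real.pi / 2))
    (hS : ∀ b1 b2 δ : ℝ, 0 < b1 → b1 ≤ b2 → 0 < δ → Frame.StepQ Frame.QL b1 b2 δ) :
    helicity bCrit = 2 / Real.pi :=
  Frame.helicity_lit initQ_crit hT0 hT hS

end Vale.Agent.P159.TM.H41
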