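import Vale.Agent.P159.TM.Spec.C
import Vale.Agent.P159.TM.H104.Neutral
import Vale.Agent.P159.TM.H22.Base
import Vale.Agent.P159.TM.H459.Tor
import Vale.Agent.P159.TM.H764.Hyp
import Vale.Agent.P159.TM.H77.PosF
import Vale.Agent.P159.TM.H871.Inst
import Vale.Agent.P159.T1.H897.LogC

/-!
Row KER (P159, T1).  The torus kernel `G b N ξ w = Cov₀(h₀, h_w)` of the massive heights with the
weight `SpecC.wT b N` and the masses `SpecC.ms ξ = ξ⁻²`, and its structural facts: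
standing hypotheses of the weight (`wt_wT`, `sup_wT`, `shift_wT`, `even_wT`, `gin_wT`), symmetries,
`0 ≤ G`, quadratic form `frm G`, `0 ≤ Ĝ ≤ ξ²`, equivalence of the two forms of `QU`.
-/

open Finset

namespace Vale.Agent.P159.TM.H41

open Vale.Agent.P159.H353 (wI wI_nonneg wI_neg wI_anti wI_zero_pos)
open Vale.Agent.P159.TM.SpecC (Tor wT ms)
open Vale.Agent.P159.TM.H104 (Cf co ddU Gr_co Gr_lin)
open Vale.Agent.P159.TM.H870 (gr lin Zr)
open Vale.Agent.P159.TM.H459 (tS tT dir)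
open Vale.Agent.P159.TM.H764 (frm Gh cN grd)

noncomputable section

variable {N : ℕ} [NeZero N] {b : ℝ}

/-! ### the weight -/

theorem wT_eq_Wk (b : ℝ) :
    wT b N = T1.H897.Wk (tS (N := N)) tT (fun _ => wI b) := by
  funext h
  unfold wT T1.H897.Wk
  have h1 := Fintype.prod_prod_type
    (fun e : Tor N × Bool => wI b (h (tT (N := N) e) - h (tS (N := N) e)))
  refine Eq.trans ?_ h1.symm
  refine Finset.prod_congr rfl fun x _ => ?_
  rw [Fintype.prod_bool]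
  rfl

theorem wT_eq_W (b : ℝ) :
    wT b N = T1.H934.W (T1.H934.grd (tS (N := N)) tT) (fun _ => b) := by
  rw [wT_eq_Wk]
  exact H22.Wk_eq_W tS tT (fun _ => b)

theorem wt_wT (hb : 0 ≤ b) : H871.Wt (wT b N) := by
  rw [wT_eq_Wk]
  exact H871.wt_Wk (fun _ n => wI_nonneg hb n)
    (fun _ => ⟨wI b 0, fun n => wI_anti hb (by rw [abs_zero]; exact abs_nonneg _)⟩)
    (fun _ => wI_zero_pos hb)

theorem sup_wT (hb : 0 ≤ b) : H871.Sup (wT b N) := by
  rw [wT_eq_Wk]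
  exact H871.sup_Wk (fun _ n => wI_nonneg hb n) (fun _ => T1.H897.logC_wI hb)

theorem shift_wT (h : Tor N → ℤ) : wT b N (h + 1) = wT b N h := by
  rw [wT_eq_Wk]
  exact H871.shift_Wk h

theorem even_wT (h : Tor N → ℤ) : wT b N (-h) = wT b N h := by
  rw [wT_eq_Wk]
  exact H871.even_Wk (fun _ n => wI_neg b n) h

theorem gin_wT (hb : 0 ≤ b) {m : Tor N → ℝ} (hm : ∀ x, 0 < m x) : H871.Gin (wT b N) m := by
  rw [wT_eq_Wk]
  exact H22.gin_Wk tS tT (fun _ => hb) hm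

omit [NeZero N] in
theorem ms_pos {ξ : ℝ} (hξ : 0 < ξ) (x : Tor N) : 0 < ms ξ x := by
  unfold ms
  positivity

/-! ### `Z(f) ≤ Z(0)` -/

theorem Z_le_zero {V E : Type} [Fintype V] [DecidableEq V] [Fintype E] (s t : E → V)
    {J : E → ℝ} (hJ : ∀ e, 0 ≤ J e) {m : V → ℝ} (hm : ∀ x, 0 < m x) (f : V → ℝ) :
    H871.Z (T1.H897.Wk s t fun e => wI (J e)) m f ≤
      H871.Z (T1.H897.Wk s t fun e => wI (J e)) m 0 := by
  have h := (H77.bare_le s t hJ ∅ (m := m) (fun x _ => hm x) (fun _ => 0)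
    (fun x => m x * f x)).2
  have e1 : ∑ x ∈ (∅ : Finset V)ᶜ, (m x * f x) ^ 2 / (2 * m x) = ∑ x, m x / 2 * f x ^ 2 := by
    rw [Finset.compl_empty]
    refine Finset.sum_congr rfl fun x _ => ?_
    have := (hm x).ne'
    field_simp
  simp only [Real.cosh_zero, sub_self, mul_zero, Finset.sum_const_zero, zero_mul, zero_add] at h
  rw [e1] at h
  have e2 : ∀ h : V → ℤ, ∏ x, H77.sA ∅ m x (h x) =
      Real.exp (-(∑ x, m x / 2 * (h x : ℝ) ^ 2)) := by
    intro h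
    rw [← Finset.sum_neg_distrib, Real.exp_sum]
    refine Finset.prod_congr rfl fun x _ => ?_
    unfold H77.sA
    rw [if_neg (Finset.notMem_empty x)]
    congr 1
    ring
  simp only [e2] at h
  have e3 : ∀ g : V → ℤ, H871.gs m f g = Real.exp (-(∑ x, m x / 2 * f x ^ 2)) *
      (Real.exp (-(∑ x, m x / 2 * (g x : ℝ) ^ 2)) * Real.exp (∑ x, m x * f x * g x)) := by
    intro g
    unfold H871.gs
    rw [← Real.exp_add, ← Real.exp_add]
    congr 1
    simp only [← Finset.sum_neg_distrib, ← Finset.sum_add_distrib]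
    refine Finset.sum_congr rfl fun x _ => ?_
    ring
  have e4 : ∀ g : V → ℤ, H871.gs m 0 g = Real.exp (-(∑ x, m x / 2 * (g x : ℝ) ^ 2)) := by
    intro g
    unfold H871.gs
    congr 2
    refine Finset.sum_congr rfl fun x _ => ?_
    simp
  unfold H871.Z T1.H897.Wk
  simp only [e3, e4]
  have e5 : ∀ g : V → ℤ, (∏ e, wI (J e) (g (t e) - g (s e))) *
      (Real.exp (-(∑ x, m x / 2 * f x ^ 2)) *
      (Real.exp (-(∑ x, m x / 2 * (g x : ℝ) ^ 2)) * Real.exp (∑ x, m x * f x * g x))) =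
      Real.exp (-(∑ x, m x / 2 * f x ^ 2)) * ((∏ e, wI (J e) (g (t e) - g (s e))) *
        Real.exp (-(∑ x, m x / 2 * (g x : ℝ) ^ 2)) * Real.exp (∑ x, m x * f x * g x)) :=
    fun g => by ring
  simp only [e5]
  rw [tsum_mul_left]
  refine (mul_le_mul_of_nonneg_left h (Real.exp_pos _).le).trans (le_of_eq ?_)
  rw [← mul_assoc, ← Real.exp_add, neg_add_cancel, Real.exp_zero, one_mul]

theorem U_nonneg_wT (hb : 0 ≤ b) {m : Tor N → ℝ} (hm : ∀ x, 0 < m x) (f : Tor N → ℝ) :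
    0 ≤ H871.U (wT b N) m f := by
  refine H871.U_nonneg_of (wt_wT hb) hm (fun g => ?_) f
  rw [wT_eq_Wk]
  exact Z_le_zero tS tT (fun _ => hb) hm g

/-! ### `Q0` and `Cf` -/

section gen
variable {V : Type} [Fintype V] {W : (V → ℤ) → ℝ} {m : V → ℝ}

theorem gs_eq_gr (m f : V → ℝ) (h : V → ℤ) : H871.gs m f h = gr m h f := rfl

theorem Ex_odd (hev : ∀ h, W (-h) = W h) (m : V → ℝ) {Y : (V → ℤ) → ℝ}
    (hY : ∀ h, Y (-h) = -Y h) : H870.Ex W m 0 Y = 0 := by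
  have h1 : ∑' h, W h * gr m h 0 * Y h = -∑' h, W h * gr m h 0 * Y h := by
    rw [← tsum_neg]
    rw [← (Equiv.neg (V → ℤ)).tsum_eq]
    refine tsum_congr fun h => ?_
    simp only [Equiv.neg_apply]
    rw [hev, hY]
    have : gr m (-h) 0 = gr m h 0 := by
      unfold gr
      congr 2
      refine Finset.sum_congr rfl fun x _ => ?_
      simp
    rw [this]
    ring
  have h2 : ∑' h, W h * gr m h 0 * Y h = 0 := by linarith
  unfold H870.Ex
  rw [h2, zero_div]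

theorem Ex_lin (hev : ∀ h, W (-h) = W h) (m u : V → ℝ) : H870.Ex W m 0 (lin m u) = 0 :=
  Ex_odd hev m fun h => by
    unfold lin
    rw [← Finset.sum_neg_distrib]
    refine Finset.sum_congr rfl fun x _ => ?_
    simp

theorem Ex_co (hev : ∀ h, W (-h) = W h) (m : V → ℝ) (x : V) : H870.Ex W m 0 (co x) = 0 :=
  Ex_odd hev m fun h => by
    unfold co
    simp

/-- `Q0` of `H871` is the variance of `lin m u` -/
theorem Q0_eq (hev : ∀ h, W (-h) = W h) (m u : V → ℝ) :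
    H871.Q0 W m u = Cf W m 0 (lin m u) (lin m u) := by
  unfold Cf
  rw [Ex_lin hev, mul_zero, sub_zero]
  unfold H871.Q0 H870.Ex H871.Z Zr
  simp only [gs_eq_gr]
  congr 1
  refine tsum_congr fun h => ?_
  unfold lin
  ring

theorem ddU_eq_Q0 (hev : ∀ h, W (-h) = W h) (m u : V → ℝ) :
    ddU W m 0 u u = ∑ x, m x * u x ^ 2 - H871.Q0 W m u := by
  rw [Q0_eq hev]
  unfold ddU
  congr 1
  exact Finset.sum_congr rfl fun x _ => by ring

theorem kap_eq_ddU (hev : ∀ h, W (-h) = W h) (m : V → ℝ) :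
    H871.kap W m = ddU W m 0 (fun _ => 1) (fun _ => 1) := by
  rw [ddU_eq_Q0 hev]
  unfold H871.kap
  simp

/-- permutation of the sites -/
theorem Ex_perm (σ : V ≃ V) (hW : ∀ h : V → ℤ, W (h ∘ σ) = W h) (m f : V → ℝ)
    (hm : ∀ x, m (σ x) = m x) (hf : ∀ x, f (σ x) = f x) (Y : (V → ℤ) → ℝ) :
    H870.Ex W m f (fun h => Y (h ∘ σ)) = H870.Ex W m f Y := by
  have hg : ∀ h : V → ℤ, gr m (h ∘ σ) f = gr m h f := by
    intro h
    unfold gr
    congr 2
    rw [← Equiv.sum_comp σ (fun x => m x / 2 * ((h x : ℝ) - f x) ^ 2)]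
    refine Finset.sum_congr rfl fun x _ => ?_
    rw [hm, hf]
    rfl
  unfold H870.Ex
  congr 1
  rw [← (σ.symm.arrowCongr (Equiv.refl ℤ)).tsum_eq (fun h : V → ℤ => W h * gr m h f * Y h)]
  refine tsum_congr fun h => ?_
  have e : (σ.symm.arrowCongr (Equiv.refl ℤ)) h = h ∘ σ := by
    funext x
    rfl
  rw [e, hW, hg]

theorem Cf_perm (σ : V ≃ V) (hW : ∀ h : V → ℤ, W (h ∘ σ) = W h) (m f : V → ℝ)
    (hm : ∀ x, m (σ x) = m x) (hf : ∀ x, f (σ x) = f x) (x y : V) :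
    Cf W m f (co (σ x)) (co (σ y)) = Cf W m f (co x) (co y) := by
  have h1 := Ex_perm σ hW m f hm hf (fun h => co x h * co y h)
  have h2 := Ex_perm σ hW m f hm hf (co x)
  have h3 := Ex_perm σ hW m f hm hf (co y)
  unfold Cf
  rw [← h1, ← h2, ← h3]
  rfl

end gen

/-! ### symmetries of the torus weight -/

theorem wT_add (z : Tor N) (h : Tor N → ℤ) : wT b N (h ∘ (Equiv.addLeft z)) = wT b N h := by
  unfold wT
  rw [← Equiv.prod_comp (Equiv.addLeft z) (fun x : Tor N =>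
    wI b (h (x + (1, 0)) - h x) * wI b (h (x + (0, 1)) - h x))]
  refine Finset.prod_congr rfl fun x _ => ?_
  simp only [Function.comp_apply, Equiv.coe_addLeft, add_assoc]

/-- the reflection of the first coordinate -/
def rfE (N : ℕ) : Tor N ≃ Tor N := (Equiv.neg (ZMod N)).prodCongr (Equiv.refl _)

/-- the exchange of the coordinates -/
def swE (N : ℕ) : Tor N ≃ Tor N := Equiv.prodComm _ _

theorem wT_rf (h : Tor N → ℤ) : wT b N (h ∘ rfE N) = wT b N h := by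
  unfold wT
  rw [Finset.prod_mul_distrib, Finset.prod_mul_distrib]
  congr 1
  · rw [← Equiv.prod_comp ((rfE N).trans (Equiv.addRight ((-1, 0) : Tor N)))
      (fun x : Tor N => wI b (h (x + (1, 0)) - h x))]
    refine Finset.prod_congr rfl fun x _ => ?_
    rw [← wI_neg]
    congr 1
    simp only [Function.comp_apply, Equiv.trans_apply, Equiv.coe_addRight, neg_sub]
    have e1 : rfE N x + (-1, 0) + (1, 0) = rfE N x := by
      ext <;> simp
    have e2 : rfE N (x + (1, 0)) = rfE N x + (-1, 0) := by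
      unfold rfE
      ext
      · simp [add_comm]
      · simp
    rw [e1, e2]
  · rw [← Equiv.prod_comp (rfE N) (fun x : Tor N => wI b (h (x + (0, 1)) - h x))]
    refine Finset.prod_congr rfl fun x _ => ?_
    have e2 : rfE N (x + (0, 1)) = rfE N x + (0, 1) := by
      unfold rfE
      ext
      · simp
      · simp
    simp only [Function.comp_apply]
    rw [e2]

theorem wT_sw (h : Tor N → ℤ) : wT b N (h ∘ swE N) = wT b N h := by
  unfold wT
  rw [← Equiv.prod_comp (swE N) (fun x : Tor N =>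
    wI b (h (x + (1, 0)) - h x) * wI b (h (x + (0, 1)) - h x))]
  refine Finset.prod_congr rfl fun x _ => ?_
  have e1 : swE N (x + (1, 0)) = swE N x + (0, 1) := by
    unfold swE; ext <;> simp
  have e2 : swE N (x + (0, 1)) = swE N x + (1, 0) := by
    unfold swE; ext <;> simp
  simp only [Function.comp_apply]
  rw [e1, e2, mul_comm]

/-! ### the kernel -/

/-- `Cov₀(h₀, h_w)` on the torus of side `N`, coupling `b`, mass `ξ⁻²` -/
def G (b : ℝ) (N : ℕ) [NeZero N] (ξ : ℝ) (w : Tor N) : ℝ := Cf (wT b N) (ms ξ) 0 (co 0) (co w)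

theorem G_eq (b ξ : ℝ) (w : Tor N) :
    G b N ξ w = H870.Ex (wT b N) (ms ξ) 0 fun h => (h 0 : ℝ) * h w := by
  unfold G Cf
  rw [Ex_co even_wT, zero_mul, sub_zero]
  rfl

theorem Cf_G (b ξ : ℝ) (x z : Tor N) :
    Cf (wT b N) (ms ξ) 0 (co x) (co z) = G b N ξ (z - x) := by
  have h := Cf_perm (Equiv.addLeft x) (fun h => wT_add (b := b) x h) (ms ξ) 0 (fun _ => rfl)
    (fun _ => rfl) 0 (z - x)
  have e : x + (z - x) = z := by abel
  simp only [Equiv.coe_addLeft, add_zero, e] at h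
  exact h

theorem G_refl (b ξ : ℝ) (w : Tor N) : G b N ξ (-w.1, w.2) = G b N ξ w := by
  have h := Cf_perm (rfE N) (fun h => wT_rf (b := b) h) (ms ξ) 0 (fun _ => rfl)
    (fun _ => rfl) 0 w
  have e0 : rfE N (0 : Tor N) = 0 := by unfold rfE; ext <;> simp
  rw [e0] at h
  exact h

theorem G_swap (b ξ : ℝ) (w : Tor N) : G b N ξ (w.2, w.1) = G b N ξ w := by
  have h := Cf_perm (swE N) (fun h => wT_sw (b := b) h) (ms ξ) 0 (fun _ => rfl)
    (fun _ => rfl) 0 w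
  have e0 : swE N (0 : Tor N) = 0 := by unfold swE; ext <;> simp
  rw [e0] at h
  exact h

theorem G_neg (b ξ : ℝ) (w : Tor N) : G b N ξ (-w) = G b N ξ w := by
  have h1 := Cf_G b ξ w (0 : Tor N)
  have h2 := Cf_G b ξ (0 : Tor N) w
  rw [zero_sub] at h1
  rw [sub_zero] at h2
  rw [← h1, ← h2]
  unfold Cf
  rw [mul_comm (H870.Ex _ _ _ (co w))]
  congr 2
  funext h
  ring

variable {ξ : ℝ}

theorem G_zero_nonneg (hb : 0 ≤ b) : 0 ≤ G b N ξ 0 := by
  rw [G_eq]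
  unfold H870.Ex
  refine div_nonneg (tsum_nonneg fun h => ?_) (tsum_nonneg fun h => ?_)
  · exact mul_nonneg (mul_nonneg ((wt_wT hb).nonneg h) (H870.gr_pos _ _ _).le) (mul_self_nonneg _)
  · exact mul_nonneg ((wt_wT hb).nonneg h) (H870.gr_pos _ _ _).le

/-- **`0 ≤ G`** -/
theorem G_nonneg (hb : 0 ≤ b) (hξ : 0 < ξ) (w : Tor N) : 0 ≤ G b N ξ w := by
  by_cases hw : w = 0
  · rw [hw]
    exact G_zero_nonneg hb
  · exact H104.Cf_nonneg (wt_wT hb) (ms_pos hξ) (sup_wT hb) 0 (Ne.symm hw)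

/-- the variance of `∑ ξ⁻² u h` is `ξ⁻⁴ <u, G u>` -/
theorem Cf_frm (hb : 0 ≤ b) (hξ : 0 < ξ) (u : Tor N → ℝ) :
    Cf (wT b N) (ms ξ) 0 (lin (ms ξ) u) (lin (ms ξ) u) = 1 / ξ ^ 4 * frm (G b N ξ) u := by
  rw [H104.Cf_lin (ms_pos hξ) (wt_wT hb)]
  unfold frm
  rw [Finset.mul_sum]
  refine Finset.sum_congr rfl fun x _ => ?_
  rw [Finset.mul_sum]
  refine Finset.sum_congr rfl fun z _ => ?_
  rw [Cf_G]
  unfold ms
  field_simp

theorem ddU_frm (hb : 0 ≤ b) (hξ : 0 < ξ) (u : Tor N → ℝ) :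
    ddU (wT b N) (ms ξ) 0 u u = 1 / ξ ^ 2 * ∑ x, u x ^ 2 - 1 / ξ ^ 4 * frm (G b N ξ) u := by
  unfold ddU
  rw [Cf_frm hb hξ, Finset.mul_sum]
  congr 1
  refine Finset.sum_congr rfl fun x _ => ?_
  unfold ms
  ring

theorem Q0_le (hb : 0 ≤ b) {m : Tor N → ℝ} (hm : ∀ x, 0 < m x) (u : Tor N → ℝ) :
    0 ≤ ddU (wT b N) m 0 u u := by
  rw [ddU_eq_Q0 even_wT]
  have h1 := H871.U_quad (wt_wT hb) hm even_wT (gin_wT hb hm) u
  have h2 := U_nonneg_wT hb hm u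
  linarith

/-- **`<u, G u> ≤ ξ² |u|²`** -/
theorem frm_le (hb : 0 ≤ b) (hξ : 0 < ξ) (u : Tor N → ℝ) :
    frm (G b N ξ) u ≤ ξ ^ 2 * ∑ x, u x ^ 2 := by
  have h := Q0_le hb (ms_pos hξ) u
  rw [ddU_frm hb hξ] at h
  have h4 : (0 : ℝ) < ξ ^ 4 := by positivity
  have h1 : 0 ≤ ξ ^ 4 * (1 / ξ ^ 2 * ∑ x, u x ^ 2 - 1 / ξ ^ 4 * frm (G b N ξ) u) :=
    mul_nonneg h4.le h
  have h2 : ξ ^ 4 * (1 / ξ ^ 2 * ∑ x, u x ^ 2 - 1 / ξ ^ 4 * frm (G b N ξ) u) =
      ξ ^ 2 * ∑ x, u x ^ 2 - frm (G b N ξ) u := by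
    field_simp
  linarith

theorem frm_nonneg (hb : 0 ≤ b) (hξ : 0 < ξ) (u : Tor N → ℝ) : 0 ≤ frm (G b N ξ) u := by
  have h := Cf_frm hb hξ u
  have h0 : 0 ≤ Cf (wT b N) (ms ξ) 0 (lin (ms ξ) u) (lin (ms ξ) u) := by
    rw [← Q0_eq even_wT]
    unfold H871.Q0 H871.Z
    refine div_nonneg (tsum_nonneg fun h => ?_) (tsum_nonneg fun h => ?_)
    · exact mul_nonneg (mul_nonneg ((wt_wT hb).nonneg h) (H871.gs_pos _ _ _).le) (sq_nonneg _)
    · exact mul_nonneg ((wt_wT hb).nonneg h) (H871.gs_pos _ _ _).le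
  rw [h] at h0
  have h4 : (0 : ℝ) < 1 / ξ ^ 4 := by positivity
  exact nonneg_of_mul_nonneg_right h0 h4

/-- **`0 ≤ Ĝ(k)`** -/
theorem Gh_nonneg (hb : 0 ≤ b) (hξ : 0 < ξ) (k : Tor N) : 0 ≤ Gh (G b N ξ) k := by
  have h1 := frm_nonneg hb hξ (fun x => cN (H764.dt k x))
  have h2 := frm_nonneg hb hξ (fun x => H764.sN (H764.dt k x))
  have h3 := H764.frm_wave (G b N ξ) k
  have hN : (0 : ℝ) < (N : ℝ) ^ 2 := by
    have : (0 : ℝ) < N := by exact_mod_cast NeZero.pos N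
    positivity
  have h4 : 0 ≤ (N : ℝ) ^ 2 * Gh (G b N ξ) k := by rw [← h3]; exact add_nonneg h1 h2
  exact nonneg_of_mul_nonneg_right h4 hN

/-- **`Ĝ(k) ≤ ξ²`** -/
theorem Gh_le (hb : 0 ≤ b) (hξ : 0 < ξ) (k : Tor N) : Gh (G b N ξ) k ≤ ξ ^ 2 := by
  have h1 := frm_le hb hξ (fun x => cN (H764.dt k x))
  have h2 := frm_le hb hξ (fun x => H764.sN (H764.dt k x))
  have h3 := H764.frm_wave (G b N ξ) k
  have h5 := H764.sq_wave k
  have hN : (0 : ℝ) < (N : ℝ) ^ 2 := by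
    have : (0 : ℝ) < N := by exact_mod_cast NeZero.pos N
    positivity
  have h4 : (N : ℝ) ^ 2 * Gh (G b N ξ) k ≤ (N : ℝ) ^ 2 * ξ ^ 2 := by
    rw [← h3]
    have : (N : ℝ) ^ 2 * ξ ^ 2 = ξ ^ 2 * ∑ x : Tor N, cN (H764.dt k x) ^ 2 +
        ξ ^ 2 * ∑ x : Tor N, H764.sN (H764.dt k x) ^ 2 := by
      rw [← mul_add, h5]
      ring
    rw [this]
    exact add_le_add h1 h2
  exact le_of_mul_le_mul_left h4 hN

/-- `dirE = grd` -/
theorem dirE_eq (u : Tor N → ℝ) : H859.dirE u = grd u := by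
  unfold H859.dirE grd H764.Q
  rw [Finset.sum_add_distrib]

/-- the two forms of the one-scale hypothesis agree -/
theorem QU_iff (hb : 0 ≤ b) (hξ : 0 < ξ) (y a : ℝ) :
    SpecC.QU (wT b N) ξ y a ↔ H764.QU ξ (G b N ξ) y a := by
  unfold SpecC.QU H764.QU
  refine forall_congr' fun u => ?_
  rw [ddU_frm hb hξ, dirE_eq]
  have h4 : (0 : ℝ) < ξ ^ 4 := by positivity
  have e1 : ξ ^ 4 * (1 / ξ ^ 2 * ∑ x, u x ^ 2 - 1 / ξ ^ 4 * frm (G b N ξ) u) =
      ξ ^ 2 * ∑ x, u x ^ 2 - frm (G b N ξ) u := by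
    field_simp
  have e2 : ξ ^ 4 * (y / ξ ^ 2 * ∑ x, u x ^ 2 + a * grd u) =
      y * ξ ^ 2 * ∑ x, u x ^ 2 + a * ξ ^ 4 * grd u := by
    field_simp
  rw [← mul_le_mul_iff_right₀ h4, e1, e2]
  constructor <;> intro h <;> linarith

/-- `κ V` in terms of the kernel -/
theorem ddU_one (hb : 0 ≤ b) (hξ : 0 < ξ) :
    ddU (wT b N) (ms ξ) 0 (fun _ => 1) (fun _ => 1) =
      (N : ℝ) ^ 2 / ξ ^ 2 * (1 - Gh (G b N ξ) 0 / ξ ^ 2) := by
  rw [ddU_frm hb hξ]
  have h3 := H764.frm_wave (G b N ξ) 0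
  have e1 : (fun x : Tor N => cN (H764.dt 0 x)) = fun _ => (1 : ℝ) := by
    funext x
    have : H764.dt (0 : Tor N) x = 0 := by simp [H764.dt]
    rw [this, H764.cN_zero]
  have e2 : (fun x : Tor N => H764.sN (H764.dt 0 x)) = fun _ => (0 : ℝ) := by
    funext x
    have : H764.dt (0 : Tor N) x = 0 := by simp [H764.dt]
    rw [this]
    unfold H764.sN
    simp
  rw [e1, e2] at h3
  have e3 : frm (G b N ξ) (fun _ => (0 : ℝ)) = 0 := by
    unfold frm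
    simp
  rw [e3, add_zero] at h3
  rw [h3]
  have e4 : ∑ _x : Tor N, (1 : ℝ) ^ 2 = (N : ℝ) ^ 2 := by
    rw [one_pow, Finset.sum_const, Finset.card_univ, nsmul_eq_mul, mul_one, H764.card_V]
  rw [e4]
  field_simp

end

end Vale.Agent.P159.TM.H41
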