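import Vale.Agent.P159.TM.H41.Ker
import Vale.Agent.P159.TM.H416.E7

/-!
Row KER, second part: `E7` of `H764` for the torus kernels of the masses `ξ⁻² ≥ ξ'⁻²`.
`wt416` is the `H416.Wt` of any Gin weight with strictly positive masses (general finite graph).
-/

open Finset

namespace Vale.Agent.P159.TM.H41

open Vale.Agent.P159.TM.SpecC (Tor wT ms)
open Vale.Agent.P159.TM.H104 (Cf co)
open Vale.Agent.P159.TM.H764 (frm Gh cN sN dt)
open Vale.Agent.P159.TM.H416 (pr Zl m2 addm dm rp)

noncomputable section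

section gen
variable {V : Type} [Fintype V] {W : (V → ℤ) → ℝ} {m : V → ℝ}

/-- the weight with the masses put in -/
def mw (W : (V → ℤ) → ℝ) (m : V → ℝ) (h : V → ℤ) : ℝ :=
  W h * Real.exp (-(1 / 2) * ∑ x, m x * (h x : ℝ) ^ 2)

theorem mw_eq (W : (V → ℤ) → ℝ) (m : V → ℝ) (h : V → ℤ) : mw W m h = W h * H871.gs m 0 h := by
  unfold mw H871.gs
  rw [Finset.mul_sum, ← Finset.sum_neg_distrib]
  congr 2
  refine Finset.sum_congr rfl fun x _ => ?_
  simp only [Pi.zero_apply, sub_zero]
  ring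

theorem mw_tilt (hm : ∀ x, 0 < m x) (t : V → ℝ) (h : V → ℤ) :
    mw W m h * Real.exp (pr t h) =
      Real.exp (∑ x, t x ^ 2 / (2 * m x)) * (W h * H871.gs m (fun x => t x / m x) h) := by
  rw [mw_eq, mul_assoc]
  have h1 := H871.gs_tilt hm (0 : V → ℝ) t h
  unfold pr
  rw [h1]
  simp only [Pi.zero_apply, zero_mul, Finset.sum_const_zero, zero_add]
  ring

theorem Zl_mw (hm : ∀ x, 0 < m x) (t : V → ℝ) :
    Zl (mw W m) t = Real.exp (∑ x, t x ^ 2 / (2 * m x)) * H871.Z W m (fun x => t x / m x) := by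
  unfold Zl H871.Z
  rw [← tsum_mul_left]
  exact tsum_congr fun h => mw_tilt hm t h

/-- the package of `H416` for a weight with the four copy inequality and positive masses -/
theorem wt416 (hW : H871.Wt W) (hm : ∀ x, 0 < m x) (hG : H871.Gin W m) : H416.Wt (mw W m) where
  nonneg h := mul_nonneg (hW.nonneg h) (Real.exp_pos _).le
  summ t := by
    refine Summable.congr ((hW.summable hm (fun x => t x / m x)).mul_left
      (Real.exp (∑ x, t x ^ 2 / (2 * m x)))) fun h => ?_
    exact (mw_tilt hm t h).symm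
  pos := by
    have h1 := hW.Z_pos hm 0
    unfold H871.Z at h1
    rw [tsum_congr (fun h => mw_eq W m h)]
    exact h1
  four t u := by
    rw [Zl_mw hm, Zl_mw hm, Zl_mw hm, Zl_mw hm, Zl_mw hm]
    have h := hG (fun x => t x / m x) (fun x => u x / m x)
    have e1 : (fun x => (t + u) x / m x) = (fun x => t x / m x) + fun x => u x / m x := by
      funext x
      simp only [Pi.add_apply]
      ring
    have e2 : (fun x => (t - u) x / m x) = (fun x => t x / m x) - fun x => u x / m x := by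
      funext x
      simp only [Pi.sub_apply]
      ring
    have e3 : (fun x => (0 : V → ℝ) x / m x) = 0 := by
      funext x
      simp
    rw [e1, e2, e3]
    have e4 : Real.exp (∑ x, (0 : V → ℝ) x ^ 2 / (2 * m x)) = 1 := by simp
    rw [e4, one_mul]
    have e5 : Real.exp (∑ x, (t + u) x ^ 2 / (2 * m x)) *
        Real.exp (∑ x, (t - u) x ^ 2 / (2 * m x)) =
        (Real.exp (∑ x, t x ^ 2 / (2 * m x)) * Real.exp (∑ x, u x ^ 2 / (2 * m x))) ^ 2 := by
      rw [← Real.exp_add, ← Real.exp_add, ← Real.exp_nat_mul, ← Finset.sum_add_distrib,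
        ← Finset.sum_add_distrib]
      congr 1
      rw [Finset.mul_sum]
      refine Finset.sum_congr rfl fun x _ => ?_
      simp only [Pi.add_apply, Pi.sub_apply]
      push_cast
      ring
    set A := Real.exp (∑ x, t x ^ 2 / (2 * m x))
    set B := Real.exp (∑ x, u x ^ 2 / (2 * m x))
    set C := Real.exp (∑ x, (t + u) x ^ 2 / (2 * m x))
    set D := Real.exp (∑ x, (t - u) x ^ 2 / (2 * m x))
    have hAB : 0 ≤ (A * B) ^ 2 := sq_nonneg _
    calc _ = (A * B) ^ 2 * (H871.Z W m (fun x => t x / m x) ^ 2 *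
          H871.Z W m (fun x => u x / m x) ^ 2) := by ring
      _ ≤ (A * B) ^ 2 * (H871.Z W m ((fun x => t x / m x) + fun x => u x / m x) *
          H871.Z W m ((fun x => t x / m x) - fun x => u x / m x) * H871.Z W m 0 ^ 2) :=
        mul_le_mul_of_nonneg_left h hAB
      _ = _ := by rw [← e5]; ring

/-- adding masses on a set -/
theorem addm_mw [DecidableEq V] {δ : ℝ} (hδ : 0 ≤ δ) (S : Finset V) :
    addm (mw W m) (dm fun _ => δ) S = mw W (fun x => m x + if x ∈ S then δ else 0) := by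
  funext h
  rw [H416.addm_dm _ (fun _ => hδ)]
  unfold mw
  rw [mul_assoc, ← Real.exp_add, ← mul_add]
  congr 3
  simp only [add_mul, Finset.sum_add_distrib, ite_mul, zero_mul, Finset.sum_ite_mem,
    Finset.univ_inter]

theorem m2_mw (hev : ∀ h, W (-h) = W h) (u : V → ℝ) :
    m2 (mw W m) u = Cf W m 0 (fun h => pr u h) (fun h => pr u h) := by
  have h0 : H870.Ex W m 0 (fun h => pr u h) = 0 := Ex_odd hev m fun h => by
    unfold pr
    rw [← Finset.sum_neg_distrib]
    refine Finset.sum_congr rfl fun x _ => ?_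
    simp
  unfold Cf
  rw [h0, mul_zero, sub_zero]
  unfold m2 H870.Ex H870.Zr
  congr 1
  · refine tsum_congr fun h => ?_
    rw [mw_eq, gs_eq_gr]
    ring
  · exact tsum_congr fun h => mw_eq W m h

end gen

variable {N : ℕ} [NeZero N] {b ξ : ℝ}

/-- `m2` of the torus weight is the form of the kernel -/
theorem m2_frm (hb : 0 ≤ b) (hξ : 0 < ξ) (u : Tor N → ℝ) :
    m2 (mw (wT b N) (ms ξ)) u = frm (G b N ξ) u := by
  rw [m2_mw even_wT]
  have e : (fun h : Tor N → ℤ => pr u h) = H870.lin (ms ξ) (fun x => ξ ^ 2 * u x) := by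
    funext h
    unfold pr H870.lin ms
    refine Finset.sum_congr rfl fun x _ => ?_
    field_simp
  rw [e, Cf_frm hb hξ]
  unfold frm
  rw [Finset.mul_sum]
  refine Finset.sum_congr rfl fun x _ => ?_
  rw [Finset.mul_sum]
  refine Finset.sum_congr rfl fun z _ => ?_
  field_simp

/-- the cosine wave is an eigenvector -/
theorem frm_cos (b ξ : ℝ) (k : Tor N) :
    frm (G b N ξ) (fun x => cN (dt k x)) = Gh (G b N ξ) k * ∑ x, cN (dt k x) ^ 2 := by
  have h0 : ∑ w, G b N ξ w * sN (dt k w) = 0 := by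
    have h1 : ∑ w, G b N ξ w * sN (dt k w) = -∑ w, G b N ξ w * sN (dt k w) := by
      rw [← Finset.sum_neg_distrib]
      rw [← Equiv.sum_comp (Equiv.neg (Tor N))]
      refine Finset.sum_congr rfl fun w _ => ?_
      simp only [Equiv.neg_apply]
      rw [G_neg]
      have : dt k (-w) = -dt k w := by unfold dt; simp; ring
      rw [this, H764.sN_neg]
      ring
    linarith
  unfold frm
  have h2 : ∀ x : Tor N, ∑ z, G b N ξ (z - x) * cN (dt k x) * cN (dt k z) =
      cN (dt k x) ^ 2 * Gh (G b N ξ) k := by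
    intro x
    rw [H764.Gh_dt]
    have h3 : ∑ z, G b N ξ (z - x) * cN (dt k x) * cN (dt k z) =
        ∑ w, G b N ξ w * cN (dt k x) * cN (dt k (x + w)) := by
      rw [← Equiv.sum_comp (Equiv.addLeft x)]
      refine Finset.sum_congr rfl fun w _ => ?_
      simp only [Equiv.coe_addLeft, add_sub_cancel_left]
    rw [h3]
    have h4 : ∀ w, G b N ξ w * cN (dt k x) * cN (dt k (x + w)) =
        cN (dt k x) ^ 2 * (G b N ξ w * cN (dt k w)) -
          cN (dt k x) * sN (dt k x) * (G b N ξ w * sN (dt k w)) := by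
      intro w
      rw [H764.dt_add, H764.cN_add]
      ring
    simp only [h4]
    rw [Finset.sum_sub_distrib, ← Finset.mul_sum, ← Finset.mul_sum, h0]
    ring
  simp only [h2]
  rw [← Finset.sum_mul, mul_comm]

/-- **E7 on plane waves** -/
theorem e7 (hb : 0 ≤ b) {ξ' : ℝ} (hξ : 0 < ξ) (hξ' : ξ ≤ ξ') :
    H764.E7 ξ ξ' (G b N ξ) (G b N ξ') := by
  intro k
  have hp : 0 < ξ' := lt_of_lt_of_le hξ hξ'
  set δ := 1 / ξ ^ 2 - 1 / ξ' ^ 2 with hδ
  have hδ0 : 0 ≤ δ := by
    rw [hδ, sub_nonneg]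
    exact one_div_le_one_div_of_le (by positivity) (by gcongr)
  have hW : ∀ T : Finset (Tor N), H416.Wt (addm (mw (wT b N) (ms ξ')) (dm fun _ => δ) T) := by
    intro T
    rw [addm_mw hδ0]
    have hm : ∀ x : Tor N, 0 < ms ξ' x + if x ∈ T then δ else 0 := by
      intro x
      have := ms_pos hp x
      split_ifs <;> linarith
    exact wt416 (wt_wT hb) hm (gin_wT hb hm)
  have hu : 0 < rp (fun x => cN (dt k x)) (fun x => cN (dt k x)) := by
    unfold rp
    refine Finset.sum_pos' (fun x _ => mul_self_nonneg _) ⟨0, Finset.mem_univ _, ?_⟩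
    have : dt k (0 : Tor N) = 0 := by simp [H764.dt]
    show 0 < cN (dt k (0 : Tor N)) * cN (dt k (0 : Tor N))
    rw [this, H764.cN_zero]
    norm_num
  have h := H416.e7_scalar hδ0 hW (fun x => cN (dt k x)) hu
  have e1 : addm (mw (wT b N) (ms ξ')) (dm fun _ => δ) univ = mw (wT b N) (ms ξ) := by
    rw [addm_mw hδ0]
    congr 1
    funext x
    rw [if_pos (Finset.mem_univ x), hδ]
    unfold ms
    ring
  have e2 : rp (fun x : Tor N => cN (dt k x)) (fun x => cN (dt k x)) =
      ∑ x, cN (dt k x) ^ 2 := by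
    unfold rp
    exact Finset.sum_congr rfl fun x _ => (sq _).symm
  rw [e2] at hu
  rw [e1, m2_frm hb hξ, m2_frm hb hp, frm_cos, frm_cos, e2, mul_div_assoc, mul_div_assoc,
    div_self hu.ne', mul_one, mul_one] at h
  exact h

end

end Vale.Agent.P159.TM.H41
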