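import Vale.Agent.P159.TM.Frame.Lit
import Vale.Agent.P159.TM.H41.Ker2
import Vale.Agent.P159.TM.H764.Inh
import Vale.Agent.P159.TM.Spec.I

/-!
Row INITQ (P159, T1): the output `SpecI.WIN bCrit` of module (I) gives `Frame.InitQ Frame.QL`.
-/

open Finset

namespace Vale.Agent.P159.TM.H41

open Vale.Agent.P159.H353 (wI)
open Vale.Agent.P159.TM.SpecC (Tor wT ms)
open Vale.Agent.P159.TM.H764 (frm Gh cN sN dt QK Hyp)

noncomputable section

/-! ### dictionary with `SpecI` -/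

theorem wt_gr (n : ℕ) [NeZero n] (b ξ : ℝ) (h : Tor n → ℤ) :
    SpecI.wt b univ ∅ (SpecI.full (1 / ξ ^ 2)) h = wT b n h * H870.gr (ms ξ) h 0 := by
  unfold SpecI.wt SpecI.full wT H870.gr ms
  simp only [Finset.notMem_empty, false_implies, implies_true, if_true, one_mul]
  have h1 := Fintype.prod_prod_type
    (fun e : Tor n × Bool => wI b (h (SpecI.tgt e) - h e.1))
  have h2 : ∏ e : Tor n × Bool, wI b (h (SpecI.tgt e) - h e.1) =
      ∏ x : Tor n, (wI b (h (x + (1, 0)) - h x) * wI b (h (x + (0, 1)) - h x)) := by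
    refine h1.trans (Finset.prod_congr rfl fun x _ => ?_)
    rw [Fintype.prod_bool, mul_comm]
    have e1 : SpecI.tgt (x, false) = x + (1, 0) := by
      unfold SpecI.tgt
      ext <;> simp
    have e2 : SpecI.tgt (x, true) = x + (0, 1) := by
      unfold SpecI.tgt
      ext <;> simp
    rw [e1, e2]
  rw [h2]
  congr 2
  rw [Finset.mul_sum, ← Finset.sum_neg_distrib, ← Finset.sum_neg_distrib, Finset.sum_div]
  refine Finset.sum_congr rfl fun x _ => ?_
  simp only [Pi.zero_apply, sub_zero]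
  ring

theorem ex_Ex (n : ℕ) [NeZero n] (b ξ : ℝ) (F : (Tor n → ℤ) → ℝ) :
    SpecI.ex b univ ∅ (SpecI.full (1 / ξ ^ 2)) F = H870.Ex (wT b n) (ms ξ) 0 F := by
  unfold SpecI.ex H870.Ex H870.Zr
  simp only [wt_gr]

theorem epsK_eq {i k : ℕ} (hik : i ≤ k) : SpecI.epsK (2 ^ i) k = 1 / ((2 ^ (k - i) : ℕ) : ℝ) ^ 2 := by
  unfold SpecI.epsK
  rw [div_eq_div_iff (by positivity) (by positivity), one_mul]
  push_cast
  rw [← mul_pow, ← pow_add, Nat.add_sub_cancel' hik, ← pow_mul, mul_comm k 2, pow_mul]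
  norm_num

/-- **the dictionary** -/
theorem Ghat_eq (b : ℝ) {i k : ℕ} (hik : i ≤ k) (j : ℕ) :
    SpecI.Ghat b (2 ^ i) k j =
      Gh (G b (2 ^ k) ((2 ^ (k - i) : ℕ) : ℝ)) ((j : ZMod (2 ^ k)), 0) := by
  unfold SpecI.Ghat SpecI.exT Gh
  rw [epsK_eq hik]
  refine Finset.sum_congr rfl fun z _ => ?_
  rw [ex_Ex, ← G_eq]
  congr 1
  have e1 : (j : ZMod (2 ^ k)) * z.1 + 0 * z.2 = (((j : ℤ) * (z.1.val : ℤ) : ℤ) : ZMod (2 ^ k)) := by
    push_cast
    rw [ZMod.natCast_zmod_val, zero_mul, add_zero]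
  show _ = cN ((j : ZMod (2 ^ k)) * z.1 + 0 * z.2)
  rw [e1, H764.cN_int]
  congr 1
  push_cast
  ring

/-! ### the window of one axis -/

/-- elementary: the window inequality from the Gaussian lower bound with a small error -/
theorem win_alg {Y a p q K0 e : ℝ} (hY : 0 < Y) (ha : 0 < a) (hq : 0 < q) (hqp : q ≤ p)
    (hpK : p ≤ K0) (he : 0 ≤ e)
    (hB : e * ((1 + a * K0 ^ 2) * (1 + K0 ^ 2 / Y)) ≤ q ^ 2 * (a - 1 / Y)) :
    1 ≤ (1 + a * p ^ 2) * (1 / (1 + p ^ 2 / Y) - e) := by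
  have hp : 0 < p := lt_of_lt_of_le hq hqp
  have hpp : p ^ 2 ≤ K0 ^ 2 := by nlinarith
  have hqq : q ^ 2 ≤ p ^ 2 := by nlinarith
  have h1 : 0 < 1 + p ^ 2 / Y := by positivity
  have h2 : 0 < 1 + a * p ^ 2 := by positivity
  have h3 : 1 + a * p ^ 2 ≤ 1 + a * K0 ^ 2 := by
    have := mul_le_mul_of_nonneg_left hpp ha.le
    linarith
  have h4 : 1 + p ^ 2 / Y ≤ 1 + K0 ^ 2 / Y := by
    have := div_le_div_of_nonneg_right hpp hY.le
    linarith
  have h5 : (1 + a * p ^ 2) * (1 + p ^ 2 / Y) ≤ (1 + a * K0 ^ 2) * (1 + K0 ^ 2 / Y) :=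
    mul_le_mul h3 h4 h1.le (by nlinarith)
  have h6 : e * ((1 + a * p ^ 2) * (1 + p ^ 2 / Y)) ≤ q ^ 2 * (a - 1 / Y) :=
    (mul_le_mul_of_nonneg_left h5 he).trans hB
  have h7 : 0 ≤ a - 1 / Y := by
    by_contra hneg
    push Not at hneg
    have h8 : q ^ 2 * (a - 1 / Y) < 0 := mul_neg_of_pos_of_neg (by positivity) hneg
    have h9 : 0 ≤ e * ((1 + a * p ^ 2) * (1 + p ^ 2 / Y)) := by positivity
    linarith
  have h8 : e * ((1 + a * p ^ 2) * (1 + p ^ 2 / Y)) ≤ p ^ 2 * (a - 1 / Y) :=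
    h6.trans (mul_le_mul_of_nonneg_right hqq h7)
  have h9 : (1 + a * p ^ 2) * (1 / (1 + p ^ 2 / Y) - e) * (1 + p ^ 2 / Y) =
      (1 + a * p ^ 2) - e * ((1 + a * p ^ 2) * (1 + p ^ 2 / Y)) := by
    field_simp
  have h10 : 1 * (1 + p ^ 2 / Y) ≤
      (1 + a * p ^ 2) * (1 / (1 + p ^ 2 / Y) - e) * (1 + p ^ 2 / Y) := by
    rw [h9]
    have : p ^ 2 * (a - 1 / Y) = a * p ^ 2 - p ^ 2 / Y := by ring
    linarith
  exact le_of_mul_le_mul_right h10 h1

/-- `QK` at the scales `ξ = 2^(k-i)` on the torus `2^k`, `i` large, `k` large -/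
theorem qk_of_win {b a' : ℝ} (hb : 0 ≤ b) (hY : 0 < helicity b) (haY : 1 / helicity b < a')
    (hW : SpecI.WIN b) {y1 : ℝ} (hy1 : 0 < y1) :
    ∃ i₁ : ℕ, ∀ i : ℕ, i₁ ≤ i → ∃ k₁ : ℕ, i ≤ k₁ ∧ ∀ k : ℕ, k₁ ≤ k →
      QK ((2 ^ (k - i) : ℕ) : ℝ) (G b (2 ^ k) ((2 ^ (k - i) : ℕ) : ℝ)) y1 a' := by
  set Y := helicity b with hYdef
  obtain ⟨C, c, hC, hc, i₀, hwin⟩ := hW hY
  have hY1 : 0 < 1 / Y := by positivity
  have ha' : 0 < a' := hY1.trans haY
  set a : ℝ := (1 / Y + a') / 2 with ha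
  have haY' : 1 / Y < a := by rw [ha]; linarith
  have haa' : a < a' := by rw [ha]; linarith
  have ha0 : 0 < a := hY1.trans haY'
  set K0 : ℝ := Real.pi / (2 * √a') with hK0
  have hsa : 0 < √a' := Real.sqrt_pos.2 ha'
  have hK0p : 0 < K0 := by positivity
  have hKK : Real.pi ^ 2 ≤ 4 * a' * K0 ^ 2 := by
    rw [hK0, div_pow, mul_pow, Real.sq_sqrt ha'.le]
    apply le_of_eq
    field_simp
    ring
  -- the left end of the window
  obtain ⟨p, hp, hpy, hpK⟩ : ∃ p : ℝ, 0 < p ∧ 501 * a * p ^ 2 ≤ y1 ∧ 5 * p ≤ K0 := by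
    refine ⟨min (√(y1 / (501 * a))) (K0 / 5), lt_min (Real.sqrt_pos.2 (by positivity))
      (by positivity), ?_, ?_⟩
    · have h1 : (min (√(y1 / (501 * a))) (K0 / 5)) ^ 2 ≤ y1 / (501 * a) := by
        have h2 : min (√(y1 / (501 * a))) (K0 / 5) ≤ √(y1 / (501 * a)) := min_le_left _ _
        have h3 : 0 ≤ min (√(y1 / (501 * a))) (K0 / 5) :=
          le_min (Real.sqrt_nonneg _) (by positivity)
        calc _ ≤ (√(y1 / (501 * a))) ^ 2 := pow_le_pow_left₀ h3 h2 2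
          _ = _ := Real.sq_sqrt (by positivity)
      rw [le_div_iff₀ (by positivity)] at h1
      linarith
    · have : min (√(y1 / (501 * a))) (K0 / 5) ≤ K0 / 5 := min_le_right _ _
      linarith
  set B : ℝ := (1 + a * K0 ^ 2) * (1 + K0 ^ 2 / Y) with hB
  have hBp : 0 < B := by positivity
  set e : ℝ := (p / 2) ^ 2 * (a - 1 / Y) / B with he
  have hep : 0 < e := by
    have : 0 < a - 1 / Y := by linarith
    positivity
  have heB : e * B ≤ (p / 2) ^ 2 * (a - 1 / Y) := by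
    rw [he, div_mul_cancel₀ _ hBp.ne']
  -- thresholds for i
  have hlim : Filter.Tendsto (fun i : ℕ => C * (2 : ℝ) ^ (-(c * i))) Filter.atTop (nhds 0) := by
    have h1 : Filter.Tendsto (fun i : ℕ => ((2 : ℝ) ^ (-c)) ^ i) Filter.atTop (nhds 0) := by
      refine tendsto_pow_atTop_nhds_zero_of_lt_one (by positivity) ?_
      exact Real.rpow_lt_one_of_one_lt_of_neg (by norm_num) (by linarith)
    have h2 := h1.const_mul C
    rw [mul_zero] at h2
    refine h2.congr fun i => ?_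
    rw [← Real.rpow_natCast, ← Real.rpow_mul (by norm_num)]
    ring_nf
  obtain ⟨i₂, hi₂⟩ := Filter.eventually_atTop.1
    (hlim.eventually (gt_mem_nhds (show (0 : ℝ) < e / 2 by positivity)))
  obtain ⟨i₃, hi₃⟩ := pow_unbounded_of_one_lt (4 * Real.pi / p) (one_lt_two (α := ℝ))
  refine ⟨max i₀ (max i₂ i₃), fun i hi => ?_⟩
  have hi0 : i₀ ≤ i := (le_max_left _ _).trans hi
  have hi2 : C * (2 : ℝ) ^ (-(c * i)) < e / 2 :=
    hi₂ i (((le_max_left _ _).trans (le_max_right _ _)).trans hi)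
  have hi3 : 4 * Real.pi / p < (2 : ℝ) ^ i :=
    lt_of_lt_of_le hi₃ (pow_le_pow_right₀ (by norm_num)
      (((le_max_right _ _).trans (le_max_right _ _)).trans hi))
  have hπ := Real.pi_pos
  have h2i : (0 : ℝ) < 2 ^ i := by positivity
  -- the index J
  set J : ℕ := ⌊p * 2 ^ i / (2 * Real.pi)⌋₊ with hJ
  have hx : 2 < p * 2 ^ i / (2 * Real.pi) := by
    rw [lt_div_iff₀ (by positivity)]
    rw [div_lt_iff₀ hp] at hi3
    linarith
  have hJle : (J : ℝ) ≤ p * 2 ^ i / (2 * Real.pi) := Nat.floor_le (by positivity)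
  have hJlt : p * 2 ^ i / (2 * Real.pi) < J + 1 := Nat.lt_floor_add_one _
  have hJ1 : 1 ≤ J := by
    have : (1 : ℝ) < J := by linarith
    exact_mod_cast this.le
  have hJ1' : (1 : ℝ) ≤ J := by exact_mod_cast hJ1
  have hpJ1 : 2 * Real.pi * J / 2 ^ i ≤ p := by
    rw [div_le_iff₀ h2i]
    rw [le_div_iff₀ (by positivity)] at hJle
    linarith
  have hpJ2 : p / 2 ≤ 2 * Real.pi * J / 2 ^ i := by
    rw [le_div_iff₀ h2i]
    have h1 : p * 2 ^ i / (2 * Real.pi) < 2 * J := by linarith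
    rw [div_lt_iff₀ (by positivity)] at h1
    linarith
  -- thresholds for k
  set T : ℕ := ⌊K0 * 2 ^ i / (2 * Real.pi)⌋₊ with hT
  have hw : ∀ j : ℕ, 1 ≤ j → ∃ k₀ : ℕ, ∀ k : ℕ, k₀ ≤ k →
      (1 / (1 + (2 * Real.pi * j / 2 ^ i) ^ 2 / Y) - C * (2 : ℝ) ^ (-(c * i)) - e / 2) /
        SpecI.epsK (2 ^ i) k ≤ SpecI.Ghat b (2 ^ i) k j :=
    fun j hj => hwin i hi0 j hj (e / 2) (by positivity)
  choose! kj hkj using hw
  obtain ⟨k₃, hk₃⟩ := pow_unbounded_of_one_lt (K0 ^ 2 * a' / (12 * (a' - a)) + 1)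
    (one_lt_two (α := ℝ))
  refine ⟨max (max i (i + k₃)) (∑ j ∈ range (T + 1), kj j), (le_max_left _ _).trans
    (le_max_left _ _), fun k hk => ?_⟩
  have hik : i ≤ k := ((le_max_left _ _).trans (le_max_left _ _)).trans hk
  have hik3 : i + k₃ ≤ k := ((le_max_right _ _).trans (le_max_left _ _)).trans hk
  have hks : ∑ j ∈ range (T + 1), kj j ≤ k := (le_max_right _ _).trans hk
  set ξ : ℝ := ((2 ^ (k - i) : ℕ) : ℝ) with hξ
  have hξ2 : ξ = 2 ^ (k - i) := by rw [hξ]; push_cast; rfl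
  have hξp : 0 < ξ := by rw [hξ2]; positivity
  have hNξ : (((2 ^ k : ℕ)) : ℝ) = 2 ^ i * ξ := by
    rw [hξ2, ← pow_add, Nat.add_sub_cancel' hik]
    push_cast
    rfl
  have hξ3 : K0 ^ 2 * a' / (12 * (a' - a)) + 1 < ξ := by
    rw [hξ2]
    exact lt_of_lt_of_le hk₃ (pow_le_pow_right₀ (by norm_num) (by omega))
  have hpj : ∀ j : ℝ, 2 * Real.pi * j / ((2 ^ k : ℕ) : ℝ) = 2 * Real.pi * j / 2 ^ i / ξ := by
    intro j
    rw [hNξ]
    field_simp
  have hda : 0 < a' - a := by linarith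
  have hkey := QK.of_window (N := 2 ^ k) (ξ := ξ) (K0 := K0) (a := a) (a' := a') hξp
    (G := G b (2 ^ k) ξ) (fun w => G_nonneg hb hξp w) (fun w => G_refl b ξ w)
    (fun w => G_swap b ξ w) (fun k => Gh_nonneg hb hξp k) (Gh_le hb hξp 0) ha0 (J := J) hJ1
    (by
      rw [hpj, ← mul_div_assoc]
      exact div_le_div_of_nonneg_right (by linarith) hξp.le) hK0p
    (by
      have h1 : 1 ≤ ξ := by
        have : 0 ≤ K0 ^ 2 * a' / (12 * (a' - a)) := by positivity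
        linarith
      have h2 : K0 ^ 2 * a' / (12 * (a' - a)) ≤ ξ ^ 2 := by nlinarith
      rw [div_le_iff₀ (by positivity)] at h2
      have h3 : K0 ^ 2 * a' / (12 * ξ ^ 2) ≤ a' - a := by
        rw [div_le_iff₀ (by positivity)]
        linarith
      have h4 : a' * (1 - K0 ^ 2 / (12 * ξ ^ 2)) = a' - K0 ^ 2 * a' / (12 * ξ ^ 2) := by ring
      linarith) hKK
    (by
      intro j hj hjK
      rw [hpj] at hjK ⊢
      have hjK' : 2 * Real.pi * j / 2 ^ i ≤ K0 := by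
        rwa [div_le_div_iff_of_pos_right hξp] at hjK
      have hj1 : 1 ≤ j := hJ1.trans hj
      have hjT : j ∈ range (T + 1) := by
        rw [Finset.mem_range, Nat.lt_succ_iff, hT]
        refine Nat.le_floor ?_
        rw [le_div_iff₀ (by positivity)]
        rw [div_le_iff₀ h2i] at hjK'
        linarith
      have hkk : kj j ≤ k :=
        (Finset.single_le_sum (f := kj) (fun _ _ => Nat.zero_le _) hjT).trans hks
      have h1 := hkj j hj1 k hkk
      rw [Ghat_eq b hik, epsK_eq hik, ← hξ] at h1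
      set g := Gh (G b (2 ^ k) ξ) ((j : ZMod (2 ^ k)), 0)
      set pj : ℝ := 2 * Real.pi * j / 2 ^ i with hpjd
      have h2 : (1 / (1 + pj ^ 2 / Y) - e) * ξ ^ 2 ≤ g := by
        refine le_trans ?_ h1
        rw [div_div_eq_mul_div, div_one]
        refine mul_le_mul_of_nonneg_right ?_ (by positivity)
        linarith
      have h3 : p / 2 ≤ pj := by
        refine hpJ2.trans ?_
        rw [hpjd]
        have : (J : ℝ) ≤ j := by exact_mod_cast hj
        gcongr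
      have h4 := win_alg hY ha0 (show 0 < p / 2 by positivity) h3 hjK' hep.le heB
      have h5 : (1 / ξ ^ 2 + a * (pj / ξ) ^ 2) * ((1 / (1 + pj ^ 2 / Y) - e) * ξ ^ 2) =
          (1 + a * pj ^ 2) * (1 / (1 + pj ^ 2 / Y) - e) := by
        field_simp
      rw [← h5] at h4
      refine h4.trans (mul_le_mul_of_nonneg_left h2 (by positivity)))
  refine hkey.mono hξp.le ?_ le_rfl
  have h1 : ξ * (2 * Real.pi * J / ((2 ^ k : ℕ) : ℝ)) = 2 * Real.pi * J / 2 ^ i := by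
    rw [hpj]
    field_simp
  rw [h1]
  have h2 : (2 * Real.pi * J / 2 ^ i) ^ 2 ≤ p ^ 2 := pow_le_pow_left₀ (by positivity) hpJ1 2
  have h3 := mul_le_mul_of_nonneg_left h2 (show 0 ≤ 501 * a by positivity)
  linarith

/-- **INITQ** -/
theorem initQ (hW : SpecI.WIN bCrit) : Frame.InitQ Frame.QL := by
  intro hlt
  have hb : 0 < bCrit := H170.bCrit_pos
  have hπ := Real.pi_pos
  have hY : 0 < helicity bCrit := (by positivity : (0 : ℝ) < 2 / Real.pi).trans hlt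
  have hYπ : 1 / helicity bCrit < Real.pi / 2 := by
    rw [div_lt_div_iff₀ hY two_pos]
    rw [div_lt_iff₀ hπ] at hlt
    linarith
  set δ : ℝ := (Real.pi / 2 - 1 / helicity bCrit) / 2 with hδ
  have hδ0 : 0 < δ := by rw [hδ]; linarith
  set a' : ℝ := Real.pi / 2 - δ with ha'
  have haY : 1 / helicity bCrit < a' := by rw [ha', hδ]; linarith
  have ha0 : 0 < a' := (by positivity : 0 < 1 / helicity bCrit).trans haY
  have ha4 : 2 * a' ≤ 5 := by
    have := Real.pi_lt_four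
    rw [ha']; linarith
  refine ⟨δ, hδ0, fun W y0 hy0 K0 X0 => ?_⟩
  obtain ⟨s, hs⟩ := pow_unbounded_of_one_lt (8 * a' * W ^ 2) (show (1 : ℝ) < 4 by norm_num)
  have h4s : (0 : ℝ) < 4 ^ s := by positivity
  set y1 : ℝ := min y0 (min (1 / 4) (1 / 4 ^ s)) with hy1
  have hy1p : 0 < y1 := lt_min hy0 (lt_min (by norm_num) (by positivity))
  have hy10 : y1 ≤ y0 := min_le_left _ _
  have hy14 : y1 ≤ 1 / 4 := (min_le_right _ _).trans (min_le_left _ _)
  have hy1s : y1 ≤ 1 / 4 ^ s := (min_le_right _ _).trans (min_le_right _ _)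
  obtain ⟨i₁, hi₁⟩ := qk_of_win hb.le hY haY hW hy1p
  obtain ⟨i₂, hi₂⟩ := pow_unbounded_of_one_lt (K0 : ℝ) (one_lt_two (α := ℝ))
  set i : ℕ := max i₁ i₂ with hi
  obtain ⟨k₁, hk₁, hq₁⟩ := hi₁ i (le_max_left _ _)
  obtain ⟨k₂, hk₂, hq₂⟩ := hi₁ (i + s) ((le_max_left _ _).trans (Nat.le_add_right _ _))
  obtain ⟨k₃, hk₃⟩ := pow_unbounded_of_one_lt (X0 : ℝ) (one_lt_two (α := ℝ))
  set k : ℕ := max (max k₁ k₂) (i + k₃) with hk
  have hkk1 : k₁ ≤ k := (le_max_left _ _).trans (le_max_left _ _)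
  have hkk2 : k₂ ≤ k := (le_max_right _ _).trans (le_max_left _ _)
  have hkk3 : i + k₃ ≤ k := le_max_right _ _
  have hik : i ≤ k := hk₁.trans hkk1
  have hisk : i + s ≤ k := hk₂.trans hkk2
  have hprod : 2 ^ i * 2 ^ (k - i) = 2 ^ k := by rw [← pow_add, Nat.add_sub_cancel' hik]
  refine ⟨2 ^ i, 2 ^ (k - i), ?_, ?_, ?_⟩
  · have h1 : (K0 : ℝ) < 2 ^ i := lt_of_lt_of_le hi₂ (pow_le_pow_right₀ (by norm_num)
      (le_max_right _ _))
    exact_mod_cast h1.le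
  · have h1 : (X0 : ℝ) < 2 ^ (k - i) := lt_of_lt_of_le hk₃ (pow_le_pow_right₀ (by norm_num)
      (by omega))
    exact_mod_cast h1.le
  · rw [hprod]
    have hx : (0 : ℝ) < ((2 ^ (k - i) : ℕ) : ℝ) := by positivity
    have hx2 : (0 : ℝ) < ((2 ^ (k - (i + s)) : ℕ) : ℝ) := by positivity
    have hQ1 := hq₁ k hkk1
    have hQ2 := hq₂ k hkk2
    have hMx : (2 : ℝ) ^ s * ((2 ^ (k - (i + s)) : ℕ) : ℝ) = ((2 ^ (k - i) : ℕ) : ℝ) := by
      push_cast
      rw [← pow_add]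
      congr 1
      omega
    refine ⟨inferInstance, (hQ1.mono hx.le hy10 le_rfl).qu, ?_⟩
    have hE := e7 (N := 2 ^ k) (b := bCrit) hb.le hx2
      (show ((2 ^ (k - (i + s)) : ℕ) : ℝ) ≤ (2 : ℝ) ^ s * ((2 ^ (k - (i + s)) : ℕ) : ℝ) from
        le_mul_of_one_le_left hx2.le (one_le_pow₀ (by norm_num)))
    have h22 : ((2 : ℝ) ^ s) ^ 2 = 4 ^ s := by
      rw [← pow_mul, mul_comm, pow_mul]
      norm_num
    have h := H764.H2.step (C2 := 5) (W := W) (M := 2 ^ s) (by norm_num) hx2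
      (one_le_pow₀ (by norm_num)) (fun k => Gh_nonneg hb.le (by rw [hMx]; exact hx) k) hQ2 hE
      hy1p.le hy14 ha0.le ha4 (by rw [h22]; exact hs.le) (by
        rw [h22]
        rw [le_div_iff₀ h4s] at hy1s
        linarith)
    rw [hMx] at h
    exact h

end

end Vale.Agent.P159.TM.H41
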